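import Vale.Agent.P207Z.Calc

/-!
# P207: symmetry of the higher derivatives, derivatives of homogeneous polynomials
-/

set_option linter.all false

open Set Filter Topology Metric Asymptotics
open scoped ContDiff

noncomputable section

namespace Vale.Agent.P207Z.JetBx

variable {V : Type} [NormedAddCommGroup V] [NormedSpace ℝ V]

theorem swap_sym (n : ℕ) : ∀ {W : Type} [NormedAddCommGroup W] [NormedSpace ℝ W] {f : V → W}
    {z : V}, ContDiffAt ℝ (n + 1 : ℕ) f z → ∀ (i : Fin n) (v : Fin (n + 1) → V),
      iteratedFDeriv ℝ (n + 1) f z (fun j => v (Equiv.swap i.castSucc i.succ j)) =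
        iteratedFDeriv ℝ (n + 1) f z v := by
  induction n with
  | zero => intro W _ _ f z _ i; exact i.elim0
  | succ n ih =>
    intro W _ _ f z hf i v
    induction i using Fin.lastCases with
    | cast i =>
      have h1 : ContDiffAt ℝ (n + 1 : ℕ) (fderiv ℝ f) z := hf.fderiv_right (by norm_cast)
      rw [iteratedFDeriv_succ_apply_right, iteratedFDeriv_succ_apply_right v,
        ← ih h1 i (Fin.init v)]
      have e1 : Equiv.swap i.castSucc.castSucc i.castSucc.succ (Fin.last (n + 1)) =
          Fin.last (n + 1) :=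
        Equiv.swap_apply_of_ne_of_ne (Fin.castSucc_ne_last _).symm
          (by rw [Fin.succ_castSucc]; exact (Fin.castSucc_ne_last _).symm)
      rw [e1]
      congr 2
      funext j
      simp only [Fin.init, Fin.succ_castSucc]
      rw [(Fin.castSucc_injective _).swap_apply]
    | last =>
      cases n with
      | zero =>
        have h2 := hf.isSymmSndFDerivAt (by simp)
        rw [iteratedFDeriv_two_apply, iteratedFDeriv_two_apply]
        exact h2 _ _
      | succ n =>
        have hd : DifferentiableAt ℝ (iteratedFDeriv ℝ (n + 1 + 1) f) z :=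
          hf.differentiableAt_iteratedFDeriv (by exact_mod_cast Nat.lt_succ_self _)
        have key : ∀ (u : V) (m : Fin (n + 1 + 1) → V),
            fderiv ℝ (iteratedFDeriv ℝ (n + 1 + 1) f) z u m =
              fderiv ℝ (fun y => iteratedFDeriv ℝ (n + 1 + 1) f y m) z u := fun u m =>
          (fderiv_continuousMultilinear_apply_const_apply hd m u).symm
        rw [iteratedFDeriv_succ_apply_left, iteratedFDeriv_succ_apply_left v, key, key]
        have e1 : Equiv.swap (Fin.last (n + 1)).castSucc (Fin.last (n + 1)).succ 0 = 0 :=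
          Equiv.swap_apply_of_ne_of_ne (by simp [Fin.ext_iff]) (Fin.succ_ne_zero _).symm
        rw [e1]
        congr 1
        refine Filter.EventuallyEq.fderiv_eq ?_
        filter_upwards [hf.eventually (by simp)] with y hy
        rw [← ih (hy.of_le (by exact_mod_cast Nat.le_succ _)) (Fin.last n) (Fin.tail v)]
        congr 1
        funext j
        simp only [Fin.tail]
        rw [← (Fin.succ_injective _).swap_apply]
        rfl

variable {W : Type} [NormedAddCommGroup W] [NormedSpace ℝ W] {f : V → W} {z : V}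

/-- the higher derivatives of a `C^n` map are symmetric -/
theorem perm_sym {n : ℕ} (hf : ContDiffAt ℝ n f z) (σ : Equiv.Perm (Fin n)) (v : Fin n → V) :
    iteratedFDeriv ℝ n f z (fun j => v (σ j)) = iteratedFDeriv ℝ n f z v := by
  cases n with
  | zero => congr 1; exact Subsingleton.elim _ _
  | succ n =>
    have h : σ ∈ Submonoid.closure (Set.range fun i : Fin n => Equiv.swap i.castSucc i.succ) := by
      rw [Equiv.Perm.mclosure_swap_castSucc_succ]; trivial
    induction h using Submonoid.closure_induction generalizing v with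
    | mem x hx => obtain ⟨i, rfl⟩ := hx; exact swap_sym n hf i v
    | one => rfl
    | mul x y _ _ hx hy => exact (hy fun j => v (x j)).trans (hx v)

/-- the diagonal map -/
def dg (V : Type) [NormedAddCommGroup V] [NormedSpace ℝ V] (j : ℕ) : V →L[ℝ] (Fin j → V) :=
  ContinuousLinearMap.pi fun _ => ContinuousLinearMap.id ℝ V

theorem norm_dg (j : ℕ) (q : V) : ‖dg V j q‖ ≤ ‖q‖ :=
  (pi_norm_le_iff_of_nonneg (norm_nonneg _)).2 fun _ => le_rfl

theorem contDiff_diag {j : ℕ} (M : V [×j]→L[ℝ] W) {n : WithTop ℕ∞} :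
    ContDiff ℝ n fun x => M fun _ => x :=
  M.contDiff.comp (dg V j).contDiff

theorem norm_diag {j : ℕ} (M : V [×j]→L[ℝ] W) (i : ℕ) (q : V) :
    ‖iteratedFDeriv ℝ i (fun x => M fun _ => x) q‖ ≤ j.descFactorial i * ‖M‖ * ‖q‖ ^ (j - i) := by
  have h1 : ‖dg V j‖ ≤ 1 := (dg V j).opNorm_le_bound zero_le_one fun q => by
    rw [one_mul]; exact norm_dg j q
  change ‖iteratedFDeriv ℝ i (M ∘ dg V j) q‖ ≤ _
  rw [(dg V j).iteratedFDeriv_comp_right M.contDiff q le_rfl]
  refine (ContinuousMultilinearMap.norm_compContinuousLinearMap_le _ _).trans ?_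
  refine (mul_le_of_le_one_right (norm_nonneg _)
    (Finset.prod_le_one (fun _ _ => norm_nonneg _) fun _ _ => h1)).trans ?_
  refine (M.norm_iteratedFDeriv_le i _).trans ?_
  rw [Fintype.card_fin]
  gcongr
  exact norm_dg j q

theorem diag_lt {j i : ℕ} (M : V [×j]→L[ℝ] W) (h : j < i) (q : V) :
    iteratedFDeriv ℝ i (fun x => M fun _ => x) q = 0 := by
  have := norm_diag M i q
  rwa [Nat.descFactorial_eq_zero_iff_lt.2 h, Nat.cast_zero, zero_mul, zero_mul,
    norm_le_zero_iff] at this

theorem diag_ne {j i : ℕ} (M : V [×j]→L[ℝ] W) (h : j ≠ i) :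
    iteratedFDeriv ℝ i (fun x => M fun _ => x) 0 = 0 := by
  rcases h.lt_or_gt with h | h
  · exact diag_lt M h 0
  · have := norm_diag M i 0
    rwa [norm_zero, zero_pow (by omega), mul_zero, norm_le_zero_iff] at this

theorem diag_zero {j : ℕ} {M : V [×j]→L[ℝ] W} (h : Flat j (fun x => M fun _ => x) 0) (y : V) :
    (M fun _ => y) = 0 := by
  have h1 : Flat j (fun t : ℝ => M fun _ => t • y) 0 :=
    Flat.comp (f := fun x => M fun _ => x) (τ := fun t : ℝ => t • y) (by simpa using h)
      (by fun_prop)
  refine norm_le_zero_iff.1 (le_of_forall_pos_le_add fun ε hε => ?_)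
  obtain ⟨t, ht, h0⟩ := (((isLittleO_iff.1 h1 hε).filter_mono nhdsWithin_le_nhds).and
    (self_mem_nhdsWithin (s := {(0 : ℝ)}ᶜ))).exists
  rw [M.map_smul_univ, Finset.prod_const, Finset.card_fin, norm_smul, sub_zero, norm_pow, norm_pow,
    norm_norm, mul_comm] at ht
  rw [zero_add]
  exact le_of_mul_le_mul_right ht (pow_pos (norm_pos_iff.2 h0) _)

end Vale.Agent.P207Z.JetBx
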